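import Vale.Agent.P088.R2.H867.EP.Der
import Vale.Agent.P088.R2.H932.EP.CutI
import Vale.Agent.P088.R2.H31.EP.Wgt

/-!
# P088, stage 3: the partition for the true weight

`JB` bounds of the products of steps; the cut variables for `u = uu F l g`, `ρ = rq g`; the
variables of the tubes.
-/

open Set Filter
open scoped ContDiff Topology Matrix

noncomputable section

namespace Vale.Agent.P088.R2.H867.EP

open Vale.Agent.P088.LR Vale.Agent.P088.HY Vale.Agent.P088.R2.H961.GW Vale.Agent.P088.R2.H464.Cu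
open Vale.Agent.P088.R2.H932.EP (JB tauR tauU tauT ep wt wt_nonneg cC cC_nn Cd)
open Vale.Agent.P088.R2.H31.EP (Fu uu r2)

section gen

variable {E : Type*} [NormedAddCommGroup E] [NormedSpace ℝ E] {ι κ : Type*}
  {F : ι → Bool → ℝ → ℝ} {B : ℝ} {U : Set E} {τ : ι → E → ℝ} {z : E} {e : κ → E} {s : κ → ℝ}

theorem A1_JB {S : Finset ι} {α β : ι → ℝ}
    (h : ∀ i ∈ S, 0 < τ i z → τ i z < 1 → JB e s (τ i) (α i) (β i) z) (j : κ) :
    A1 S τ (e j) z ≤ (∑ i ∈ S, on (τ i z) * α i) * s j := by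
  unfold A1
  rw [Finset.sum_mul]
  refine Finset.sum_le_sum fun i hi => ?_
  by_cases ho : 0 < τ i z ∧ τ i z < 1
  · rw [mul_assoc]
    exact mul_le_mul_of_nonneg_left ((h i hi ho.1 ho.2).d1 j) (on_nn _)
  · rw [on_zero ho]
    simp

theorem A2_JB {S : Finset ι} {α β : ι → ℝ}
    (h : ∀ i ∈ S, 0 < τ i z → τ i z < 1 → JB e s (τ i) (α i) (β i) z) (j k : κ) :
    A2 S τ (e j) (e k) z ≤ (∑ i ∈ S, on (τ i z) * β i) * (s j * s k) := by
  unfold A2
  rw [Finset.sum_mul]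
  refine Finset.sum_le_sum fun i hi => ?_
  by_cases ho : 0 < τ i z ∧ τ i z < 1
  · rw [mul_assoc]
    exact mul_le_mul_of_nonneg_left ((h i hi ho.1 ho.2).d2 j k) (on_nn _)
  · rw [on_zero ho]
    simp

/-- **The products of steps in helper932's calculus.** -/
theorem pr_JB (hs : ∀ j, 0 ≤ s j) (hB : PB F B) (hU : IsOpen U) (b : ι → Bool) (S : Finset ι)
    (hτ : ∀ i ∈ S, ContDiffOn ℝ ∞ (τ i) U) (hz : z ∈ U) {α β : ι → ℝ} (hα : ∀ i ∈ S, 0 ≤ α i)
    (h : ∀ i ∈ S, 0 < τ i z → τ i z < 1 → JB e s (τ i) (α i) (β i) z) :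
    JB e s (pr F S b τ) (B * ∑ i ∈ S, on (τ i z) * α i)
      (B ^ 2 * (∑ i ∈ S, on (τ i z) * α i) ^ 2 + B * ∑ i ∈ S, on (τ i z) * β i) z where
  sm := contDiffAt_infty.1 (((pr_sm hB.pair S b hτ) z hz).contDiffAt (hU.mem_nhds hz)) 2
  d1 j := by
    have h0 : 0 ≤ B := zero_le_one.trans hB.one
    refine (pr_d1 hB hU b S hτ hz (e j)).trans ?_
    rw [mul_assoc]
    exact mul_le_mul_of_nonneg_left (A1_JB h j) h0
  d2 j k := by
    have h0 : 0 ≤ B := zero_le_one.trans hB.one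
    refine (pr_d2 hB hU b S hτ hz (e j) (e k)).trans ?_
    have hS : 0 ≤ ∑ i ∈ S, on (τ i z) * α i :=
      Finset.sum_nonneg fun i hi => mul_nonneg (on_nn _) (hα i hi)
    have h1 := mul_le_mul (A1_JB h j) (A1_JB h k) (A1_nn S τ (e k) z)
      (mul_nonneg hS (hs j))
    have h2 := A2_JB h j k
    have h3 := mul_le_mul_of_nonneg_left h1 (sq_nonneg B)
    have h4 := mul_le_mul_of_nonneg_left h2 h0
    refine (add_le_add h3 h4).trans (le_of_eq ?_)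
    ring

end gen

variable {n : ℕ}

/-! ## The cut variables of the true weight -/

/-- `u`. -/
abbrev uF (F : Fu) (l : V n → ℝ) (g : MF n) : VV n → ℝ := uu F l g

theorem rq_sm {g : MF n} (hg : ∀ i j, ContDiff ℝ ∞ (fun x => g x i j)) : ContDiff ℝ ∞ (rq g) := by
  have h := sm_rq (g := g) (O := univ) fun i j => (hg i j).contDiffOn
  rw [← contDiffOn_univ]
  exact h.mono fun z _ => mem_univ _

theorem uF_sm {F : Fu} (hμ : ContDiff ℝ ∞ F.μ) (hχ : ContDiff ℝ ∞ F.χ) {l : V n → ℝ}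
    (hl : ContDiff ℝ ∞ l) {g : MF n} (hg : ∀ i j, ContDiff ℝ ∞ (fun x => g x i j)) :
    ContDiff ℝ ∞ (uF F l g) := by
  have h1 : ContDiff ℝ ∞ fun z : VV n => l z.1 := hl.comp contDiff_fst
  have h2 : ContDiff ℝ ∞ fun z : VV n => l z.2 := hl.comp contDiff_snd
  have hr : ContDiff ℝ ∞ (r2 g) := contDiff_const.mul (rq_sm hg)
  have h3 : ContDiff ℝ ∞ fun z : VV n => 2 * (F.χ (r2 g z) * F.μ (l (mid z))) :=
    contDiff_const.mul ((hχ.comp hr).mul (hμ.comp (hl.comp contDiff_mid)))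
  exact (h1.add h2).add h3

/-- The variable of the tube `W_x = 0`. -/
def tubX (c : ℝ) (W : VV n → ℝ) (z : VV n) : ℝ := (∑ i, dx i W z ^ 2) / c ^ 2 - 1

/-- The variable of the tube `W_y = 0`. -/
def tubY (c : ℝ) (W : VV n → ℝ) (z : VV n) : ℝ := (∑ i, dy i W z ^ 2) / c ^ 2 - 1

theorem tubX_sm {c : ℝ} {W : VV n → ℝ} (hW : ContDiff ℝ ∞ W) : ContDiff ℝ ∞ (tubX c W) := by
  unfold tubX dx
  exact ((ContDiff.sum fun i _ => (((hW.fderiv_right (m := ∞) le_rfl).clm_apply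
    contDiff_const).pow 2)).div_const _).sub contDiff_const

theorem tubY_sm {c : ℝ} {W : VV n → ℝ} (hW : ContDiff ℝ ∞ W) : ContDiff ℝ ∞ (tubY c W) := by
  unfold tubY dy
  exact ((ContDiff.sum fun i _ => (((hW.fderiv_right (m := ∞) le_rfl).clm_apply
    contDiff_const).pow 2)).div_const _).sub contDiff_const

theorem tubX_le {c : ℝ} (hc : 0 < c) {W : VV n → ℝ} {z : VV n} (h : tubX c W z ≤ 1) :
    ∑ i, dx i W z ^ 2 ≤ 2 * c ^ 2 := by
  unfold tubX at h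
  have h1 : (∑ i, dx i W z ^ 2) / c ^ 2 ≤ 2 := by linarith
  rwa [div_le_iff₀ (by positivity)] at h1

theorem tubX_ge {c : ℝ} (hc : 0 < c) {W : VV n → ℝ} {z : VV n} (h : 0 ≤ tubX c W z) :
    c ^ 2 ≤ ∑ i, dx i W z ^ 2 := by
  unfold tubX at h
  have h1 : 1 ≤ (∑ i, dx i W z ^ 2) / c ^ 2 := by linarith
  rwa [le_div_iff₀ (by positivity), one_mul] at h1

theorem tubY_le {c : ℝ} (hc : 0 < c) {W : VV n → ℝ} {z : VV n} (h : tubY c W z ≤ 1) :
    ∑ i, dy i W z ^ 2 ≤ 2 * c ^ 2 := by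
  unfold tubY at h
  have h1 : (∑ i, dy i W z ^ 2) / c ^ 2 ≤ 2 := by linarith
  rwa [div_le_iff₀ (by positivity)] at h1

theorem tubY_ge {c : ℝ} (hc : 0 < c) {W : VV n → ℝ} {z : VV n} (h : 0 ≤ tubY c W z) :
    c ^ 2 ≤ ∑ i, dy i W z ^ 2 := by
  unfold tubY at h
  have h1 : 1 ≤ (∑ i, dy i W z ^ 2) / c ^ 2 := by linarith
  rwa [le_div_iff₀ (by positivity), one_mul] at h1

/-- The constant of a cut. -/
def cK (C L : ℝ) : Cut → ℝ
  | .co => C / L
  | _ => C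

/-- The zones near the diagonal. -/
def Near (k : Zo) : Prop := k = .z0 ∨ k = .zI ∨ k = .z2a ∨ k = .zB ∨ k = .z2b

/-- The zones off the diagonal. -/
def Off (k : Zo) : Prop := k = .T1 ∨ k = .T2 ∨ k = .A1 ∨ k = .P1 ∨ k = .P2 ∨ k = .A2 ∨ k = .Af

/-- The zones at infinity. -/
def Inf (k : Zo) : Prop := k = .iH ∨ k = .iF ∨ k = .iS

/-- The zones of the real convexity. -/
def RS (k : Zo) : Prop := k = .RSn ∨ k = .RSf

theorem zo_cases (k : Zo) : Inf k ∨ RS k ∨ Near k ∨ Off k := by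
  unfold Inf RS Near Off
  cases k <;> decide

theorem near_path {k : Zo} (hk : Near k) {i : Cut} (hi : i ∈ path k) :
    i = .inf ∨ i = .rs ∨ i = .r ∨ i = .e0 ∨ i = .eB ∨ i = .t ∨ i = .co := by
  rcases hk with rfl | rfl | rfl | rfl | rfl <;> cases i <;> revert hi <;> decide

section near

variable {F : Cut → Bool → ℝ → ℝ} {B D C : ℝ} {P : CP} {O : Set (V n)} {g : MF n} {l : V n → ℝ}
  {μ : ℝ → ℝ} {u : VV n → ℝ} {X : Cut → VV n → ℝ} {z : VV n} {U : Set (VV n)}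

/-- **The cut-offs of the zones near the diagonal, off the diagonal**, from the bounds of the
variables of the cuts `inf`, `rs`, `e0`, `eB`, `co`. On the layer of the cut `co` there is the additional
factor `1 / log Λ`. -/
theorem near_JB (hB : PB F B) (hP : P.Ok) (hU : IsOpen U) (hu : ContDiffOn ℝ ∞ u U)
    (hρ : ContDiffOn ℝ ∞ (rq g) U) (h0 : ∀ z ∈ U, 0 ≤ rq g z) (hX : ∀ i, ContDiffOn ℝ ∞ (X i) U)
    (hz : z ∈ U) (hc : Cd D O g l μ u z) (hD : 0 ≤ D) (hp : 0 < rq g z)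
    (K1 : |deriv P.K (u z)| ≤ D * P.K (u z)) (K2 : |deriv (deriv P.K) (u z)| ≤ D * P.K (u z))
    (hC : cC n D ≤ C)
    (hg : ∀ i, i = .inf ∨ i = .rs ∨ i = .e0 ∨ i = .eB ∨ i = .co → 0 < cv P u (rq g) X i z →
      cv P u (rq g) X i z < 1 → JB ep (wt (rq g z)) (cv P u (rq g) X i) (cK C (Real.log P.Λ) i)
        (cK C (Real.log P.Λ) i) z) {k : Zo} (hk : Near k) :
    JB ep (wt (rq g z)) (ch F (cv P u (rq g) X) k)
      (B * ∑ i ∈ path k, on (cv P u (rq g) X i z) * cK C (Real.log P.Λ) i)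
      (B ^ 2 * (∑ i ∈ path k, on (cv P u (rq g) X i z) * cK C (Real.log P.Λ) i) ^ 2 +
      B * ∑ i ∈ path k, on (cv P u (rq g) X i z) * cK C (Real.log P.Λ) i) z := by
  have hC0 : 0 ≤ C := (cC_nn hD).trans hC
  have hL : 0 < Real.log P.Λ := Real.log_pos hP.Λ
  have hsm : ∀ i ∈ path k, ContDiffOn ℝ ∞ (cv P u (rq g) X i) U := fun i _ =>
    cv_sm hP hu hρ h0 hX i
  refine pr_JB (wt_nonneg _) hB hU (sd k) (path k) hsm hz
    (α := cK C (Real.log P.Λ)) (β := cK C (Real.log P.Λ))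
    (fun i _ => ?_) fun i hik h1 h2 => ?_
  · cases i <;> simp only [cK] <;> positivity
  · rcases near_path hk hik with rfl | rfl | rfl | rfl | rfl | rfl | rfl
    · exact hg _ (Or.inl rfl) h1 h2
    · exact hg _ (Or.inr (Or.inl rfl)) h1 h2
    · exact (hc.tauR hD hP.c₀ hp h2.le).le (wt_nonneg _) hC hC
    · exact hg _ (Or.inr (Or.inr (Or.inl rfl))) h1 h2
    · exact hg _ (Or.inr (Or.inr (Or.inr (Or.inl rfl)))) h1 h2
    · exact (hc.tauT hD hP.ct hp (contDiffAt_infty.1 hP.Ks.contDiffAt 2)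
        (hP.Kp _) K1 K2 h2.le).le (wt_nonneg _) hC hC
    · exact hg _ (Or.inr (Or.inr (Or.inr (Or.inr rfl)))) h1 h2

/-- **On the diagonal**: only the cuts `e0`, `eB` (and `inf`, `rs`) can be on, with weights `1`. -/
theorem diag_JB (hB : PB F B) (hP : P.Ok) (hU : IsOpen U) (hu : ContDiffOn ℝ ∞ u U)
    (hρ : ContDiffOn ℝ ∞ (rq g) U) (h0 : ∀ z ∈ U, 0 ≤ rq g z) (hX : ∀ i, ContDiffOn ℝ ∞ (X i) U)
    (hz : z ∈ U) (hp : rq g z = 0) (hC0 : 0 ≤ C)
    (hg : ∀ i, i = .inf ∨ i = .rs ∨ i = .e0 ∨ i = .eB → 0 < cv P u (rq g) X i z →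
      cv P u (rq g) X i z < 1 → JB ep (fun _ => 1) (cv P u (rq g) X i) C C z) {k : Zo}
    (hk : Near k) :
    JB ep (fun _ => 1) (ch F (cv P u (rq g) X) k)
      (B * ∑ i ∈ path k, on (cv P u (rq g) X i z) * C)
      (B ^ 2 * (∑ i ∈ path k, on (cv P u (rq g) X i z) * C) ^ 2 +
      B * ∑ i ∈ path k, on (cv P u (rq g) X i z) * C) z := by
  have hsm : ∀ i ∈ path k, ContDiffOn ℝ ∞ (cv P u (rq g) X i) U := fun i _ =>
    cv_sm hP hu hρ h0 hX i
  refine pr_JB (fun _ => zero_le_one) hB hU (sd k) (path k) hsm hz (α := fun _ => C)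
    (β := fun _ => C) (fun i _ => hC0) fun i hik h1 h2 => ?_
  rcases near_path hk hik with rfl | rfl | rfl | rfl | rfl | rfl | rfl
  · exact hg _ (Or.inl rfl) h1 h2
  · exact hg _ (Or.inr (Or.inl rfl)) h1 h2
  · exfalso
    have h3 : tauR P.c₀ (rq g) z = -(1 / 3) := by
      have := hP.c₀.ne'
      unfold Vale.Agent.P088.R2.H932.EP.tauR
      rw [hp]
      field_simp
      ring
    have h4 : cv P u (rq g) X .r z = tauR P.c₀ (rq g) z := rfl
    rw [h4, h3] at h1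
    norm_num at h1
  · exact hg _ (Or.inr (Or.inr (Or.inl rfl))) h1 h2
  · exact hg _ (Or.inr (Or.inr (Or.inr rfl))) h1 h2
  · exfalso
    have h4 : cv P u (rq g) X .t z = tauT P.ct P.K u (rq g) z := rfl
    rw [h4] at h1
    unfold Vale.Agent.P088.R2.H932.EP.tauT at h1
    rw [hp] at h1
    norm_num at h1
  · exfalso
    have h4 : cv P u (rq g) X .co z = tauM P.Λ P.M₁ u (rq g) z := rfl
    rw [h4] at h1
    exact absurd (tauM_zero (M₁ := P.M₁) (u := u) hP.Λ hp) (not_lt.2 h1.le)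

end near

/-! ## The sides of the zones -/

section sides

variable {F : Cut → Bool → ℝ → ℝ} {P : CP} {u ρ : VV n → ℝ} {X : Cut → VV n → ℝ} {z : VV n}

/-- What is known where the zone `k` is alive (the same inequalities hold on the support, see
`ch_tside` and `tauR_le`, ..). -/
theorem alive_r (hF : ∀ i, Pair (F i)) (hP : P.Ok) {k : Zo} (h : Alive F (cv P u ρ X) k z)
    (hk : Near k) : 2 * ρ z ≤ 4 * P.c₀ ^ 2 := by
  have h1 : Cut.r ∈ path k ∧ sd k .r = false := by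
    rcases hk with rfl | rfl | rfl | rfl | rfl <;> decide
  exact tauR_le hP.c₀ ((h.side hF h1.1).2 h1.2).le

theorem alive_off (hF : ∀ i, Pair (F i)) (hP : P.Ok) {k : Zo} (h : Alive F (cv P u ρ X) k z)
    (hk : Off k) : P.c₀ ^ 2 ≤ 2 * ρ z := by
  have h1 : Cut.r ∈ path k ∧ sd k .r = true := by
    rcases hk with rfl | rfl | rfl | rfl | rfl | rfl | rfl <;> decide
  exact tauR_ge hP.c₀ ((h.side hF h1.1).1 h1.2).le

theorem alive_inf (hF : ∀ i, Pair (F i)) {k : Zo} (h : Alive F (cv P u ρ X) k z)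
    (hk : Inf k) : 0 < X .inf z := by
  have h1 : Cut.inf ∈ path k ∧ sd k .inf = true := by
    rcases hk with rfl | rfl | rfl <;> decide
  exact (h.side hF h1.1).1 h1.2

theorem alive_fin (hF : ∀ i, Pair (F i)) {k : Zo} (h : Alive F (cv P u ρ X) k z)
    (hk : ¬Inf k) : X .inf z < 1 := by
  have h1 : Cut.inf ∈ path k ∧ sd k .inf = false := by
    cases k <;> first | exact absurd (by unfold Inf; decide) hk | decide
  exact (h.side hF h1.1).2 h1.2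

theorem alive_iH (hF : ∀ i, Pair (F i)) (h : Alive F (cv P u ρ X) .iH z) : 0 < X .hi z :=
  (h.side hF (i := .hi) (by decide)).1 (by decide)

theorem alive_iF (hF : ∀ i, Pair (F i)) (h : Alive F (cv P u ρ X) .iF z) :
    X .hi z < 1 ∧ 0 < X .fs z :=
  ⟨(h.side hF (i := .hi) (by decide)).2 (by decide), (h.side hF (i := .fs) (by decide)).1 (by decide)⟩

theorem alive_iS (hF : ∀ i, Pair (F i)) (h : Alive F (cv P u ρ X) .iS z) :
    X .hi z < 1 ∧ X .fs z < 1 :=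
  ⟨(h.side hF (i := .hi) (by decide)).2 (by decide), (h.side hF (i := .fs) (by decide)).2 (by decide)⟩

theorem rs_iff : (0 < cv P u ρ X .rs z ↔ 0 < P.VS (u z)) ∧
    (cv P u ρ X .rs z < 1 ↔ P.VS (u z) < 1) := by
  have : cv P u ρ X .rs z = P.VS (u z) := by
    show (P.VS (u z) - 0) / 1 = _
    ring
  rw [this]
  exact ⟨Iff.rfl, Iff.rfl⟩

theorem alive_RS (hF : ∀ i, Pair (F i)) {k : Zo} (h : Alive F (cv P u ρ X) k z)
    (hk : RS k) : 0 < P.VS (u z) := by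
  have h1 : Cut.rs ∈ path k ∧ sd k .rs = true := by
    rcases hk with rfl | rfl <;> decide
  exact rs_iff.1.1 ((h.side hF h1.1).1 h1.2)

theorem alive_nRS (hF : ∀ i, Pair (F i)) {k : Zo} (h : Alive F (cv P u ρ X) k z)
    (hk : Near k ∨ Off k) : P.VS (u z) < 1 := by
  have h1 : Cut.rs ∈ path k ∧ sd k .rs = false := by
    rcases hk with (rfl | rfl | rfl | rfl | rfl) | (rfl | rfl | rfl | rfl | rfl | rfl | rfl) <;> decide
  exact rs_iff.2.1 ((h.side hF h1.1).2 h1.2)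

theorem alive_RSn (hF : ∀ i, Pair (F i)) (hP : P.Ok) (h : Alive F (cv P u ρ X) .RSn z) :
    2 * ρ z ≤ P.q₂ ^ 2 :=
  tauD_le hP.q₁ hP.q₂ ((h.side hF (i := .rS) (by decide)).2 (by decide)).le

theorem alive_RSf (hF : ∀ i, Pair (F i)) (hP : P.Ok) (h : Alive F (cv P u ρ X) .RSf z) :
    P.q₁ ^ 2 ≤ 2 * ρ z :=
  tauD_ge hP.q₁ hP.q₂ ((h.side hF (i := .rS) (by decide)).1 (by decide)).le

theorem alive_Af (hF : ∀ i, Pair (F i)) (hP : P.Ok) (h : Alive F (cv P u ρ X) .Af z) :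
    P.r₁ ^ 2 ≤ 2 * ρ z :=
  tauD_ge hP.r₁ hP.r₂ ((h.side hF (i := .far) (by decide)).1 (by decide)).le

theorem alive_nf (hF : ∀ i, Pair (F i)) (hP : P.Ok) {k : Zo} (h : Alive F (cv P u ρ X) k z)
    (hk : Off k) (h0 : k ≠ .Af) : 2 * ρ z ≤ P.r₂ ^ 2 := by
  have h1 : Cut.far ∈ path k ∧ sd k .far = false := by
    rcases hk with rfl | rfl | rfl | rfl | rfl | rfl | rfl
    all_goals first | exact absurd rfl h0 | decide
  exact tauD_le hP.r₁ hP.r₂ ((h.side hF h1.1).2 h1.2).le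

/-- `T1`, `T2`, `A1`: `r ≤ p₂`. -/
theorem alive_T (hF : ∀ i, Pair (F i)) (hP : P.Ok) {k : Zo} (h : Alive F (cv P u ρ X) k z)
    (hk : k = .T1 ∨ k = .T2 ∨ k = .A1) : 2 * ρ z ≤ P.p₂ ^ 2 := by
  have h1 : Cut.rp ∈ path k ∧ sd k .rp = false := by
    rcases hk with rfl | rfl | rfl <;> decide
  exact tauD_le hP.p₁ hP.p₂ ((h.side hF h1.1).2 h1.2).le

/-- `P1`, `P2`, `A2`: `p₁ ≤ r`. -/
theorem alive_P (hF : ∀ i, Pair (F i)) (hP : P.Ok) {k : Zo} (h : Alive F (cv P u ρ X) k z)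
    (hk : k = .P1 ∨ k = .P2 ∨ k = .A2) : P.p₁ ^ 2 ≤ 2 * ρ z := by
  have h1 : Cut.rp ∈ path k ∧ sd k .rp = true := by
    rcases hk with rfl | rfl | rfl <;> decide
  exact tauD_ge hP.p₁ hP.p₂ ((h.side hF h1.1).1 h1.2).le

theorem alive_z0 (hF : ∀ i, Pair (F i)) (hP : P.Ok) (h : Alive F (cv P u ρ X) .z0 z) :
    P.V₀ (u z) ≤ P.u₀ + P.w₀ :=
  tauU_le (u := fun z => P.V₀ (u z)) hP.w₀ ((h.side hF (i := .e0) (by decide)).2 (by decide)).le

theorem alive_e0 (hF : ∀ i, Pair (F i)) (hP : P.Ok) {k : Zo} (h : Alive F (cv P u ρ X) k z)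
    (hk : Near k) (h0 : k ≠ .z0) : P.u₀ ≤ P.V₀ (u z) := by
  have h1 : Cut.e0 ∈ path k ∧ sd k .e0 = true := by
    rcases hk with rfl | rfl | rfl | rfl | rfl
    · exact absurd rfl h0
    all_goals decide
  exact tauU_ge (u := fun z => P.V₀ (u z)) hP.w₀ ((h.side hF h1.1).1 h1.2).le

theorem alive_C (hF : ∀ i, Pair (F i)) (hP : P.Ok) {k : Zo} (h : Alive F (cv P u ρ X) k z)
    (hk : k = .zI ∨ k = .z2a) : P.VB (u z) ≤ P.uB + P.wB := by
  have h1 : Cut.eB ∈ path k ∧ sd k .eB = false := by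
    rcases hk with rfl | rfl <;> decide
  exact tauU_le (u := fun z => P.VB (u z)) hP.wB ((h.side hF h1.1).2 h1.2).le

theorem alive_B (hF : ∀ i, Pair (F i)) (hP : P.Ok) {k : Zo} (h : Alive F (cv P u ρ X) k z)
    (hk : k = .zB ∨ k = .z2b) : P.uB ≤ P.VB (u z) := by
  have h1 : Cut.eB ∈ path k ∧ sd k .eB = true := by
    rcases hk with rfl | rfl <;> decide
  exact tauU_ge (u := fun z => P.VB (u z)) hP.wB ((h.side hF h1.1).1 h1.2).le

theorem alive_zI (hF : ∀ i, Pair (F i)) (hP : P.Ok) (h : Alive F (cv P u ρ X) .zI z) :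
    Real.exp (u z) * (2 * ρ z) ≤ 2 * (P.ct * P.K (u z)) :=
  tauT_le hP.ct (hP.Kp _) ((h.side hF (i := .t) (by decide)).2 (by decide)).le

theorem alive_z2a (hF : ∀ i, Pair (F i)) (hP : P.Ok) (h : Alive F (cv P u ρ X) .z2a z) :
    P.ct * P.K (u z) ≤ Real.exp (u z) * (2 * ρ z) :=
  tauT_ge hP.ct (hP.Kp _) ((h.side hF (i := .t) (by decide)).1 (by decide)).le

theorem alive_zB (hF : ∀ i, Pair (F i)) (hP : P.Ok) (h0 : 0 ≤ ρ z)
    (h : Alive F (cv P u ρ X) .zB z) :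
    Real.exp (u z) * (2 * ρ z) ≤ 2 * P.Λ * P.M₁ (u z) :=
  tauM_le hP.Λ (hP.M₁p _) h0 ((h.side hF (i := .co) (by decide)).2 (by decide)).le

theorem alive_z2b (hF : ∀ i, Pair (F i)) (hP : P.Ok) (h0 : 0 ≤ ρ z)
    (h : Alive F (cv P u ρ X) .z2b z) : P.M₁ (u z) ≤ Real.exp (u z) * (2 * ρ z) :=
  tauM_ge hP.Λ (hP.M₁p _) h0 ((h.side hF (i := .co) (by decide)).1 (by decide)).le

end sides

end Vale.Agent.P088.R2.H867.EP
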